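import Vale.Agent.P039.Bz.Stmt
import Vale.Agent.P039.Bn.L2.Rank

/-! STEP 1, first part: the white vertices are connected through the corners chosen by a good
matching. -/

namespace Vale.Agent.P039.H456

open Vale.Agent.P039.Bn Vale.Agent.P039.Bz

variable {B W V : Type} (M : PMap B W V)

/-- a function on the whites which is constant around every black is constant -/
theorem const_of (hc : M.Conn) (n : W → ℚ) (h : ∀ b i j, n (M.e i b) = n (M.e j b)) :
    ∀ w w', n w = n w' := by
  have h1 : ∀ j b b', M.c j b = M.c j b' → n (M.e 0 b) = n (M.e 0 b') := by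
    intro j b b' hb
    have h2 := M.exact j b b' hb
    clear hb
    induction h2 with
    | rel x y hxy => rw [h x 0 (j + 2), ← hxy, h y (j + 1) 0]
    | refl x => rfl
    | symm x y _ ih => exact ih.symm
    | trans x y z _ _ ih1 ih2 => exact ih1.trans ih2
  have h3 : ∀ b b', n (M.e 0 b) = n (M.e 0 b') := by
    intro b b'
    have := hc b b'
    induction this with
    | rel x y hxy => obtain ⟨j, hj⟩ := hxy; exact h1 j x y hj
    | refl x => rfl
    | symm x y _ ih => exact ih.symm
    | trans x y z _ _ ih1 ih2 => exact ih1.trans ih2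
  intro w w'
  have := h3 ((M.e 0).symm w) ((M.e 0).symm w')
  simpa using this

/-- conservation at the faces -/
theorem sum_face [Fintype B] [DecidableEq V] (n : W → ℚ) (j : Fin 3) (v : V) :
    (∑ b, if M.c j b = v then n (M.e (j + 1) b) - n (M.e (j + 2) b) else 0) = 0 := by
  have h1 : (∑ b, if M.c j b = v then n (M.e (j + 1) b) else 0) =
      ∑ b, if M.c j b = v then n (M.e (j + 2) b) else 0 := by
    rw [← Equiv.sum_comp (M.rho j)]
    refine Finset.sum_congr rfl fun b _ => ?_
    rw [M.c_rho, M.e_rho]
  have h2 : (∑ b, if M.c j b = v then n (M.e (j + 1) b) - n (M.e (j + 2) b) else 0) =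
      (∑ b, if M.c j b = v then n (M.e (j + 1) b) else 0) -
        ∑ b, if M.c j b = v then n (M.e (j + 2) b) else 0 := by
    rw [← Finset.sum_sub_distrib]
    refine Finset.sum_congr rfl fun b _ => ?_
    split_ifs <;> simp
  rw [h2, h1, sub_self]

theorem third {a i j : Fin 3} (hi : i ≠ a) (hj : j ≠ a) (hij : i ≠ j) :
    (i = a + 1 ∧ j = a + 2) ∨ (i = a + 2 ∧ j = a + 1) := by
  revert a i j; decide

variable (b₀ : B)

theorem fo_some {b : BOff b₀} {j : Fin 3} {v : VOff M b₀} :
    Fo M b₀ b j = some v ↔ M.c j b.1 = v.1 := by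
  unfold Fo
  constructor
  · intro h
    split_ifs at h with hj
    exact congrArg Subtype.val (Option.some.inj h)
  · intro h
    have h2 : ∀ i, M.c i b₀ ≠ M.c j b.1 := by
      intro i; rw [h]; exact v.2 i
    rw [dif_pos h2]
    congr 1
    exact Subtype.ext h

theorem conn_of_good {b₀ : B} {f : BOff b₀ → Fin 3} (hg : Good (Fo M b₀) f)
    (y : Option (VOff M b₀) → ℚ)
    (hy : ∀ b, y (Fo M b₀ b (f b + 2)) = y (Fo M b₀ b (f b + 1))) : ∀ v v', y v = y v' := by
  have h1 : ∀ v : VOff M b₀, y (some v) = y none := by
    by_contra hne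
    push Not at hne
    obtain ⟨v₀, hv₀⟩ := hne
    obtain ⟨b, i, j, hi, hj, ⟨v, hvK, hv⟩, hK⟩ := hg {v | y (some v) ≠ y none} ⟨v₀, hv₀⟩
    have hij : i ≠ j := by
      rintro rfl
      exact hK v hvK hv
    have h2 : y (Fo M b₀ b i) = y (Fo M b₀ b j) := by
      rcases third hi hj hij with ⟨rfl, rfl⟩ | ⟨rfl, rfl⟩
      · exact (hy b).symm
      · exact hy b
    rw [hv] at h2
    cases h3 : Fo M b₀ b j with
    | none => rw [h3] at h2; exact hvK h2
    | some v' =>
      rw [h3] at h2
      by_cases h4 : y (some v') = y none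
      · exact hvK (h2.trans h4)
      · exact hK v' h4 h3
  have h2 : ∀ v, y v = y none := by
    intro v
    cases v with
    | none => rfl
    | some v => exact h1 v
  intro v v'
  rw [h2 v, h2 v']

/-- The whites are connected through the corners of a good matching. -/
theorem gamma_conn [Fintype B] [Fintype V] (hM : M.Conn) (f : BOff b₀ → Fin 3)
    (hm : Mat (Fo M b₀) f) (hg : Good (Fo M b₀) f) (n : W → ℚ)
    (hn : ∀ b, n (M.e (f b + 1) b.1) = n (M.e (f b + 2) b.1)) : ∀ w w', n w = n w' := by
  classical
  obtain ⟨φ, hφ⟩ := hm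
  let x : BOff b₀ → ℚ := fun b => n (M.e (f b + 2) b.1) - n (M.e (f b) b.1)
  let s : BOff b₀ → Option (VOff M b₀) := fun b => Fo M b₀ b (f b + 2)
  let t : BOff b₀ → Option (VOff M b₀) := fun b => Fo M b₀ b (f b + 1)
  have hdiv1 : ∀ v : VOff M b₀, (∑ b, if t b = some v then x b else 0) =
      ∑ b, if s b = some v then x b else 0 := by
    intro v
    obtain ⟨j, b1, hj⟩ := M.surj v.1
    have h0 := sum_face M n j v.1
    have h1 : (∑ b : B, if M.c j b = v.1 then n (M.e (j + 1) b) - n (M.e (j + 2) b) else 0) =
        ∑ b : BOff b₀, if M.c j b.1 = v.1 then n (M.e (j + 1) b.1) - n (M.e (j + 2) b.1) else 0 := by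
      symm
      refine Finset.sum_bij_ne_zero (fun b _ _ => b.1) (fun _ _ _ => Finset.mem_univ _)
        (fun a _ _ b _ _ h => Subtype.ext h) ?_ (fun _ _ _ => rfl)
      intro b _ hb
      have hbb : b ≠ b₀ := by
        rintro rfl
        apply hb
        rw [if_neg (v.2 j)]
      exact ⟨⟨b, hbb⟩, Finset.mem_univ _, hb, rfl⟩
    rw [h1] at h0
    have h2 : ∀ b : BOff b₀,
        (if M.c j b.1 = v.1 then n (M.e (j + 1) b.1) - n (M.e (j + 2) b.1) else 0) =
        (if t b = some v then x b else 0) - (if s b = some v then x b else 0) := by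
      intro b
      have ht : t b = some v ↔ M.c (f b + 1) b.1 = v.1 := fo_some M b₀
      have hs : s b = some v ↔ M.c (f b + 2) b.1 = v.1 := fo_some M b₀
      rw [if_congr ht rfl rfl, if_congr hs rfl rfl]
      have hcl : ∀ j', M.c j' b.1 = v.1 → j' = j := fun j' h => M.cls _ _ _ _ (h.trans hj.symm)
      rcases fcase j (f b) with h | h | h
      · -- `j = f b`
        rw [h]
        have e1 : ¬ M.c (f b + 1) b.1 = v.1 := by
          intro hh
          exact fne1 (f b) ((hcl _ hh).trans h)
        have e2 : ¬ M.c (f b + 2) b.1 = v.1 := by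
          intro hh
          have := (hcl _ hh).trans h
          exact absurd this (by generalize f b = a; revert a; decide)
        rw [if_neg e1, if_neg e2, hn b]
        simp
      · rw [h]
        have e2 : ¬ M.c (f b + 2) b.1 = v.1 := by
          intro hh
          have := (hcl _ hh).trans h
          exact fne21 (f b) this
        rw [if_neg e2, sub_zero]
        split_ifs
        · simp only [x, f11, f12]
        · rfl
      · rw [h]
        have e1 : ¬ M.c (f b + 1) b.1 = v.1 := by
          intro hh
          have := (hcl _ hh).trans h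
          exact fne12 (f b) this
        rw [if_neg e1, zero_sub]
        split_ifs
        · simp only [x, f21, f22]
          rw [hn b]; ring
        · simp
    rw [Finset.sum_congr rfl fun b _ => h2 b, Finset.sum_sub_distrib] at h0
    linarith
  have htot : ∀ r : BOff b₀ → Option (VOff M b₀),
      (∑ v, ∑ b, if r b = v then x b else 0) = ∑ b, x b := by
    intro r
    rw [Finset.sum_comm]
    refine Finset.sum_congr rfl fun b _ => ?_
    simp
  have hdiv : ∀ v, (∑ b, if t b = v then x b else 0) = ∑ b, if s b = v then x b else 0 := by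
    intro v
    cases v with
    | some v => exact hdiv1 v
    | none =>
      have h1 := (htot t).trans (htot s).symm
      rw [Fintype.sum_option, Fintype.sum_option,
        Finset.sum_congr rfl fun v _ => hdiv1 v] at h1
      exact add_right_cancel h1
  have hx : x = 0 := by
    by_contra hx
    let D : (Unit → ℚ) →ₗ[ℚ] (BOff b₀ → ℚ) :=
      { toFun := fun a => a () • x
        map_add' := fun a b => by simp [add_smul]
        map_smul' := fun r a => by simp [mul_smul] }
    have hD : ∀ a, D a = a () • x := fun _ => rfl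
    have h1 := L2.card_add_card_le (I := Unit) s t (fun y hy => conn_of_good M hg y hy) D (by
      intro a b hab
      rw [hD, hD] at hab
      funext u
      have := smul_left_injective ℚ hx hab
      simpa using this) (by
      intro a v
      have h2 : ∀ r : BOff b₀ → Option (VOff M b₀), (∑ b, if r b = v then D a b else 0) =
          a () * ∑ b, if r b = v then x b else 0 := by
        intro r
        rw [Finset.mul_sum]
        refine Finset.sum_congr rfl fun b _ => ?_
        rw [hD]
        split_ifs <;> simp
      rw [h2, h2, hdiv v])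
    have h2 : Fintype.card (Option (VOff M b₀)) = Fintype.card (BOff b₀) + 1 := by
      rw [Fintype.card_option, Fintype.card_congr φ]
    rw [h2] at h1
    simp at h1
  have hx1 : ∀ b : BOff b₀, n (M.e (f b + 2) b.1) = n (M.e (f b) b.1) := by
    intro b
    have := congrFun hx b
    simp only [x, Pi.zero_apply] at this
    linarith
  have hb1 : ∀ b : BOff b₀, ∀ i, n (M.e i b.1) = n (M.e (f b) b.1) := by
    intro b i
    rcases fcase i (f b) with h | h | h
    · rw [h]
    · rw [h, hn b, hx1 b]
    · rw [h, hx1 b]
  have hb0 : ∀ j, n (M.e (j + 1) b₀) = n (M.e (j + 2) b₀) := by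
    intro j
    have h0 := sum_face M n j (M.c j b₀)
    rw [Finset.sum_eq_single b₀] at h0
    · rw [if_pos rfl] at h0
      linarith
    · intro b _ hb
      have := hb1 ⟨b, hb⟩
      rw [this (j + 1), this (j + 2)]
      simp
    · intro h
      exact absurd (Finset.mem_univ _) h
  refine const_of M hM n fun b i j => ?_
  by_cases hb : b = b₀
  · subst hb
    have h0 := hb0 0
    have h1 := hb0 1
    have h2 := hb0 2
    have e1 : (0 : Fin 3) + 1 = 1 := rfl
    have e2 : (0 : Fin 3) + 2 = 2 := rfl
    have e3 : (1 : Fin 3) + 1 = 2 := rfl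
    have e4 : (1 : Fin 3) + 2 = 0 := rfl
    rw [e1, e2] at h0
    rw [e3, e4] at h1
    fin_cases i <;> fin_cases j <;> simp_all
  · rw [hb1 ⟨b, hb⟩ i, hb1 ⟨b, hb⟩ j]

end Vale.Agent.P039.H456
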