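import Vale.Agent.P039.Bz.Stmt
import Vale.Agent.P039.Bn.L2.Rank

/-! The number of faces inside a connected set of vertices. -/

namespace Vale.Agent.P039.H456

open Vale.Agent.P039.Bn

variable {B W V : Type} (M : PMap B W V)

/-- all vertices of the face `v` are in `S ∪ T` -/
def Ins (S : Set B) (T : Set W) (v : V) : Prop :=
  ∀ j b, M.c j b = v → b ∈ S ∧ ∀ i, i ≠ j → M.e i b ∈ T

open Classical in
/-- extension by zero -/
noncomputable def ext {V : Type} {p : V → Prop} (n : {v // p v} → ℚ) (v : V) : ℚ :=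
  if h : p v then n ⟨v, h⟩ else 0

theorem ext_add {V : Type} {p : V → Prop} (n n' : {v // p v} → ℚ) (v : V) :
    ext (n + n') v = ext n v + ext n' v := by
  unfold ext
  split_ifs <;> simp

theorem ext_smul {V : Type} {p : V → Prop} (r : ℚ) (n : {v // p v} → ℚ) (v : V) :
    ext (r • n) v = r * ext n v := by
  unfold ext
  split_ifs <;> simp

theorem ext_zero {V : Type} {p : V → Prop} (n : {v // p v} → ℚ) {v : V} (h : ¬ p v) :
    ext n v = 0 := dif_neg h

/-- a function on the faces which is constant around every black is constant -/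
theorem const_face (hc : M.Conn) (n : V → ℚ) (h : ∀ b i j, n (M.c i b) = n (M.c j b)) :
    ∀ v v', n v = n v' := by
  have h3 : ∀ b b', n (M.c 0 b) = n (M.c 0 b') := by
    intro b b'
    have := hc b b'
    induction this with
    | rel x y hxy => obtain ⟨j, hj⟩ := hxy; rw [h x 0 j, hj, h y j 0]
    | refl x => rfl
    | symm x y _ ih => exact ih.symm
    | trans x y z _ _ ih1 ih2 => exact ih1.trans ih2
  intro v v'
  obtain ⟨j, b, rfl⟩ := M.surj v
  obtain ⟨j', b', rfl⟩ := M.surj v'
  rw [h b j 0, h b' j' 0, h3 b b']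

theorem sum_sub {α : Type} [Fintype α] (p : α → Prop) [DecidablePred p] (F : α → ℚ)
    (h : ∀ a, ¬ p a → F a = 0) : (∑ a : {a // p a}, F a.1) = ∑ a, F a := by
  rw [← Fintype.sum_subtype_add_sum_subtype p F]
  have : (∑ i : {x // ¬ p x}, F i) = 0 := Finset.sum_eq_zero fun a _ => h a.1 a.2
  rw [this, add_zero]

open Classical in
theorem ins_card [Fintype B] [Fintype W] [Fintype V] (hM : M.Conn) (S : Set B) (T : Set W)
    (hconn : ∀ y : {b // b ∈ S} ⊕ {w // w ∈ T} → ℚ,
      (∀ (b : B) (hb : b ∈ S) (j : Fin 3) (hw : M.e j b ∈ T),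
        y (Sum.inl ⟨b, hb⟩) = y (Sum.inr ⟨M.e j b, hw⟩)) → ∀ v v', y v = y v')
    (hne : ∃ v, ¬ Ins M S T v) :
    (Finset.univ.filter fun v => Ins M S T v).card + ((Finset.univ.filter fun b => b ∈ S).card +
      (Finset.univ.filter fun w => w ∈ T).card) ≤
    (Finset.univ.filter fun q : B × Fin 3 => q.1 ∈ S ∧ M.e q.2 q.1 ∈ T).card + 1 := by
  let E := {q : B × Fin 3 // q.1 ∈ S ∧ M.e q.2 q.1 ∈ T}
  let s : E → {b // b ∈ S} ⊕ {w // w ∈ T} := fun q => Sum.inl ⟨q.1.1, q.2.1⟩
  let t : E → {b // b ∈ S} ⊕ {w // w ∈ T} := fun q => Sum.inr ⟨M.e q.1.2 q.1.1, q.2.2⟩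
  let g : ({v // Ins M S T v} → ℚ) → B × Fin 3 → ℚ := fun n q =>
    ext n (M.c (q.2 + 1) q.1) - ext n (M.c (q.2 + 2) q.1)
  have hg : ∀ (n : {v // Ins M S T v} → ℚ) (q : B × Fin 3), ¬ (q.1 ∈ S ∧ M.e q.2 q.1 ∈ T) →
      ext n (M.c (q.2 + 1) q.1) = 0 ∧ ext n (M.c (q.2 + 2) q.1) = 0 := by
    intro n q hq
    constructor
    · refine ext_zero n fun h => hq ?_
      have := h (q.2 + 1) q.1 rfl
      exact ⟨this.1, this.2 q.2 (fne1 q.2).symm⟩
    · refine ext_zero n fun h => hq ?_
      have := h (q.2 + 2) q.1 rfl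
      exact ⟨this.1, this.2 q.2 (by generalize q.2 = a; revert a; decide)⟩
  have hg0 : ∀ (n : {v // Ins M S T v} → ℚ) (q : B × Fin 3), ¬ (q.1 ∈ S ∧ M.e q.2 q.1 ∈ T) → g n q = 0 := by
    intro n q hq
    simp only [g]
    rw [(hg n q hq).1, (hg n q hq).2, sub_zero]
  let D : ({v // Ins M S T v} → ℚ) →ₗ[ℚ] (E → ℚ) :=
    { toFun := fun n q => g n q.1
      map_add' := fun a b => by
        funext q
        simp only [g, Pi.add_apply]
        rw [ext_add, ext_add]; ring
      map_smul' := fun r a => by
        funext q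
        simp only [g, Pi.smul_apply, RingHom.id_apply, smul_eq_mul]
        rw [ext_smul, ext_smul]; ring }
  have hD : ∀ n q, D n q = g n q.1 := fun _ _ => rfl
  have h1 := L2.card_add_card_le s t (fun y hy => hconn y fun b hb j hw => hy ⟨(b, j), hb, hw⟩) D
    (by
      rw [injective_iff_map_eq_zero]
      intro n hn
      have h2 : ∀ b j, ext n (M.c (j + 1) b) = ext n (M.c (j + 2) b) := by
        intro b j
        by_cases hq : b ∈ S ∧ M.e j b ∈ T
        · have := congrFun hn ⟨(b, j), hq⟩
          rw [hD] at this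
          simp only [g, Pi.zero_apply] at this
          linarith
        · rw [(hg n (b, j) hq).1, (hg n (b, j) hq).2]
      have h3 : ∀ b i j, ext n (M.c i b) = ext n (M.c j b) := by
        intro b i j
        have a0 := h2 b 0
        have a1 := h2 b 1
        have e1 : (0 : Fin 3) + 1 = 1 := rfl
        have e2 : (0 : Fin 3) + 2 = 2 := rfl
        have e3 : (1 : Fin 3) + 1 = 2 := rfl
        have e4 : (1 : Fin 3) + 2 = 0 := rfl
        rw [e1, e2] at a0
        rw [e3, e4] at a1
        have a2 : ∀ i, ext n (M.c i b) = ext n (M.c 0 b) := by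
          intro i
          rcases fcase i 0 with h | h | h
          · rw [h]
          · rw [h, e1, a0, a1]
          · rw [h, e2, a1]
        rw [a2 i, a2 j]
      have h4 := const_face M hM (ext n) h3
      obtain ⟨v₀, hv₀⟩ := hne
      funext v
      have h5 : ext n v.1 = n v := dif_pos v.2
      rw [← h5, h4 v.1 v₀, ext_zero n hv₀]
      rfl)
    (by
      intro n v
      rcases v with ⟨b, hb⟩ | ⟨w, hw⟩
      · have h2 : (∑ e, if t e = Sum.inl ⟨b, hb⟩ then D n e else 0) = 0 :=
          Finset.sum_eq_zero fun e _ => if_neg (by simp [t])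
        have h3 : (∑ e, if s e = Sum.inl ⟨b, hb⟩ then D n e else 0) =
            ∑ q : B × Fin 3, if q.1 = b then g n q else 0 := by
          rw [← sum_sub (fun q : B × Fin 3 => q.1 ∈ S ∧ M.e q.2 q.1 ∈ T)
            (fun q => if q.1 = b then g n q else 0) (fun q hq => by
              simp only [hg0 n q hq, ite_self])]
          refine Finset.sum_congr rfl fun e _ => ?_
          refine if_congr ?_ rfl rfl
          simp only [s, Sum.inl.injEq, Subtype.mk.injEq]
        rw [h2, h3, Fintype.sum_prod_type_right]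
        simp only [Finset.sum_ite_eq', Finset.mem_univ, if_true]
        simp only [g, Fin.sum_univ_three]
        have e1 : (0 : Fin 3) + 1 = 1 := rfl
        have e2 : (0 : Fin 3) + 2 = 2 := rfl
        have e3 : (1 : Fin 3) + 1 = 2 := rfl
        have e4 : (1 : Fin 3) + 2 = 0 := rfl
        have e5 : (2 : Fin 3) + 1 = 0 := rfl
        have e6 : (2 : Fin 3) + 2 = 1 := rfl
        rw [e1, e2, e3, e4, e5, e6]
        ring
      · have h2 : (∑ e, if s e = Sum.inr ⟨w, hw⟩ then D n e else 0) = 0 :=
          Finset.sum_eq_zero fun e _ => if_neg (by simp [s])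
        have h3 : (∑ e, if t e = Sum.inr ⟨w, hw⟩ then D n e else 0) =
            ∑ q : B × Fin 3, if M.e q.2 q.1 = w then g n q else 0 := by
          rw [← sum_sub (fun q : B × Fin 3 => q.1 ∈ S ∧ M.e q.2 q.1 ∈ T)
            (fun q => if M.e q.2 q.1 = w then g n q else 0) (fun q hq => by
              simp only [hg0 n q hq, ite_self])]
          refine Finset.sum_congr rfl fun e _ => ?_
          refine if_congr ?_ rfl rfl
          simp only [t, Sum.inr.injEq, Subtype.mk.injEq]
        rw [h2, h3, Fintype.sum_prod_type_right]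
        have h4 : ∀ j, (∑ b, if M.e j b = w then g n (b, j) else 0) =
            ext n (M.cw (j + 1) w) - ext n (M.cw (j + 2) w) := by
          intro j
          rw [Finset.sum_eq_single ((M.e j).symm w)]
          · rw [if_pos (by simp)]
            simp only [g]
            rw [M.cw_symm (j + 1) j (fne1 j).symm w,
              M.cw_symm (j + 2) j (by revert j; decide) w]
          · intro b _ hb
            refine if_neg fun h => hb ?_
            rw [← h, Equiv.symm_apply_apply]
          · intro h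
            exact absurd (Finset.mem_univ _) h
        simp only [h4, Fin.sum_univ_three]
        have e1 : (0 : Fin 3) + 1 = 1 := rfl
        have e2 : (0 : Fin 3) + 2 = 2 := rfl
        have e3 : (1 : Fin 3) + 1 = 2 := rfl
        have e4 : (1 : Fin 3) + 2 = 0 := rfl
        have e5 : (2 : Fin 3) + 1 = 0 := rfl
        have e6 : (2 : Fin 3) + 2 = 1 := rfl
        rw [e1, e2, e3, e4, e5, e6]
        ring)
  rw [Fintype.card_sum, Fintype.card_subtype, Fintype.card_subtype, Fintype.card_subtype,
    Fintype.card_subtype] at h1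
  exact h1

end Vale.Agent.P039.H456
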