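import Vale.Agent.P039.Bn.H456.Tree
import Vale.Agent.P039.Bn.H456.Ins

/-! STEP 1: a good matching gives Hamiltonian cycles through every pair of edges at the root. -/

namespace Vale.Agent.P039.H456

open Vale.Agent.P039.Bn Vale.Agent.P039.Bz

variable {B W V : Type} (M : PMap B W V) (b₀ : B)

/-- `(S, T)` is closed under the edges which are not in the matching -/
def Clo (m : B → Fin 3) (S : Set B) (T : Set W) : Prop :=
  ∀ b j, j ≠ m b → (b ∈ S ↔ M.e j b ∈ T)

theorem Clo.compl {M : PMap B W V} {m : B → Fin 3} {S : Set B} {T : Set W} (h : Clo M m S T) :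
    Clo M m Sᶜ Tᶜ := fun b j hj => not_congr (h b j hj)

/-- the blacks of the component of the root -/
def S0 (m : B → Fin 3) : Set B := {b | ∀ S T, Clo M m S T → b₀ ∈ S → b ∈ S}

/-- the whites of the component of the root -/
def T0 (m : B → Fin 3) : Set W := {w | ∀ (S : Set B) T, Clo M m S T → b₀ ∈ S → w ∈ T}

theorem clo0 (m : B → Fin 3) : Clo M m (S0 M b₀ m) (T0 M b₀ m) := by
  intro b j hj
  constructor
  · intro h S T hc h0
    exact (hc b j hj).1 (h S T hc h0)
  · intro h S T hc h0
    exact (hc b j hj).2 (h S T hc h0)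

theorem mem0 (m : B → Fin 3) : b₀ ∈ S0 M b₀ m := fun _ _ _ h => h

theorem conn0 (m : B → Fin 3) (hb : Function.Surjective fun b => M.e (m b) b)
    (y : {b // b ∈ S0 M b₀ m} ⊕ {w // w ∈ T0 M b₀ m} → ℚ)
    (hy : ∀ (b : B) (hb : b ∈ S0 M b₀ m) (j : Fin 3) (hw : M.e j b ∈ T0 M b₀ m),
        y (Sum.inl ⟨b, hb⟩) = y (Sum.inr ⟨M.e j b, hw⟩)) : ∀ v v', y v = y v' := by
  classical
  have h0 := mem0 M b₀ m
  have hc := clo0 M b₀ m
  let S : Set B := {b | ∃ hb : b ∈ S0 M b₀ m, y (Sum.inl ⟨b, hb⟩) = y (Sum.inl ⟨b₀, h0⟩)}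
  let T : Set W := {w | ∃ hw : w ∈ T0 M b₀ m, y (Sum.inr ⟨w, hw⟩) = y (Sum.inl ⟨b₀, h0⟩)}
  have hST : Clo M m S T := by
    intro b j hj
    constructor
    · rintro ⟨hb, he⟩
      have hw := (hc b j hj).1 hb
      exact ⟨hw, (hy b hb j hw).symm.trans he⟩
    · rintro ⟨hw, he⟩
      have hb := (hc b j hj).2 hw
      exact ⟨hb, (hy b hb j hw).trans he⟩
  have hS : b₀ ∈ S := ⟨h0, rfl⟩
  have h1 : ∀ v, y v = y (Sum.inl ⟨b₀, h0⟩) := by
    rintro (⟨b, hb⟩ | ⟨w, hw⟩)
    · obtain ⟨_, he⟩ := hb S T hST hS
      exact he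
    · obtain ⟨_, he⟩ := hw S T hST hS
      exact he
  intro v v'
  rw [h1 v, h1 v']

variable {M b₀}

/-- going round a face which is neither inside nor outside one leaves `S ∪ T` -/
theorem exists_leave [Fintype B] {S : Set B} {T : Set W} {v : V} (h1 : ¬ Ins M S T v)
    (h2 : ¬ Ins M Sᶜ Tᶜ v) : ∃ j b, M.c j b = v ∧
      ((b ∈ S ∧ M.e (j + 2) b ∉ T) ∨ (b ∉ S ∧ M.e (j + 1) b ∈ T)) := by
  by_contra hne
  push Not at hne
  obtain ⟨j, b, hb⟩ := M.surj v
  have hcl : ∀ j' b', M.c j' b' = v → j' = j := fun j' b' h => M.cls _ _ _ _ (h.trans hb.symm)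
  have hA : ∀ b', M.c j b' = v → (b' ∈ S → M.e (j + 2) b' ∈ T) := fun b' h => (hne j b' h).1
  have hB : ∀ b', M.c j b' = v → (b' ∉ S → M.e (j + 1) b' ∉ T) := fun b' h => (hne j b' h).2
  have hstep : ∀ b', M.c j b' = v → b' ∈ S → M.rho j b' ∈ S := by
    intro b' h hS
    by_contra hn
    have h3 := hB (M.rho j b') ((M.c_rho j b').trans h) hn
    rw [M.e_rho] at h3
    exact h3 (hA b' h hS)
  have hpow : ∀ n b', M.c j b' = v → b' ∈ S → (M.rho j ^ n) b' ∈ S := by
    intro n
    induction n with
    | zero => intro b' _ h; exact h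
    | succ n ih =>
      intro b' h hS
      rw [pow_succ', Equiv.Perm.mul_apply]
      exact hstep _ ((M.c_rho_pow j n b').trans h) (ih b' h hS)
  have hall : ∀ b' b'', M.c j b' = v → M.c j b'' = v → b' ∈ S → b'' ∈ S := by
    intro b' b'' h h' hS
    obtain ⟨n, hn⟩ := (M.same_iff j b' b'').1 (h.trans h'.symm)
    rw [← hn]
    exact hpow n b' h hS
  by_cases hS : b ∈ S
  · apply h1
    intro j' b' h
    obtain rfl := hcl j' b' h
    have hb' := hall b b' hb h hS
    refine ⟨hb', fun i hi => ?_⟩
    rcases fcase i j' with rfl | rfl | rfl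
    · exact absurd rfl hi
    · -- `e (j+1) b' = e (j+2) (rho⁻¹ b')`
      have h5 : M.c j' ((M.rho j').symm b') = v := (M.c_rho_symm j' b').trans h
      have h6 := hA _ h5 (hall b _ hb h5 hS)
      rw [← M.e_rho, Equiv.apply_symm_apply] at h6
      exact h6
    · exact hA b' h hb'
  · apply h2
    intro j' b' h
    obtain rfl := hcl j' b' h
    have hb' : b' ∉ S := fun hh => hS (hall b' b h hb hh)
    refine ⟨hb', fun i hi => ?_⟩
    rcases fcase i j' with rfl | rfl | rfl
    · exact absurd rfl hi
    · exact hB b' h hb'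
    · -- `e (j+2) b' = e (j+1) (rho b')`
      have h5 : M.c j' (M.rho j' b') = v := (M.c_rho j' b').trans h
      have h6 := hB _ h5 (fun hh => hS (hall _ b h5 hb hh))
      rw [M.e_rho] at h6
      exact h6

/-- the face owning the edge of the matching at `b` -/
noncomputable def own (M : PMap B W V) (b₀ : B) (f : BOff b₀ → Fin 3) (b : B) : V :=
  open Classical in if h : b ≠ b₀ then M.c (f ⟨b, h⟩) b else M.c 0 b₀

theorem ham_of [Fintype B] [Fintype W] [Fintype V] (hM : M.Sph) (f : BOff b₀ → Fin 3)
    (φ : BOff b₀ ≃ VOff M b₀) (hφ : ∀ b, Fo M b₀ b (f b) = some (φ b))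
    (m : B → Fin 3) (hm : ∀ b : BOff b₀, m b.1 ≠ f b)
    (hbij : Function.Bijective (fun b => M.e (m b) b)) :
    ∀ (S : Set B) (T : Set W), (∀ b j, j ≠ m b → (b ∈ S ↔ M.e j b ∈ T)) → S.Nonempty →
      ∀ b, b ∈ S := by
  classical
  by_contra hcon
  have hne : ∃ b, b ∉ S0 M b₀ m := by
    by_contra h
    push Not at h
    apply hcon
    intro S T hST hS b
    by_cases h0 : b₀ ∈ S
    · exact h b S T hST h0
    · obtain ⟨b', hb'⟩ := hS
      exact absurd hb' (h b' Sᶜ Tᶜ (Clo.compl hST) h0)
  obtain ⟨b₁, hb₁⟩ := hne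
  have hc := clo0 M b₀ m
  have h0 := mem0 M b₀ m
  have hconn := conn0 M b₀ m hbij.2
  generalize S0 M b₀ m = S at *
  generalize T0 M b₀ m = T at *
  have hI := ins_card M hM.conn S T hconn ⟨M.c 0 b₁, fun h => hb₁ (h 0 b₁ rfl).1⟩
  -- the pieces
  set D : B → Prop := fun b => ¬ (b ∈ S ↔ M.e (m b) b ∈ T) with hDdef
  have cN : Fintype.card B = (Finset.univ.filter fun b => b ∈ S ∧ ¬ D b).card +
      (Finset.univ.filter fun b => b ∈ S ∧ D b).card +
      (Finset.univ.filter fun b => b ∉ S ∧ D b).card +
      (Finset.univ.filter fun b => b ∉ S ∧ ¬ D b).card := by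
    have h1 := Finset.card_filter_add_card_filter_not (s := (Finset.univ : Finset B)) (fun b => b ∈ S)
    have h2 := Finset.card_filter_add_card_filter_not
      (s := (Finset.univ : Finset B).filter (fun b => b ∈ S)) (fun b => D b)
    have h3 := Finset.card_filter_add_card_filter_not
      (s := (Finset.univ : Finset B).filter (fun b => b ∉ S)) (fun b => D b)
    rw [Finset.filter_filter, Finset.filter_filter] at h2 h3
    rw [Finset.card_univ] at h1
    omega
  have cS : (Finset.univ.filter fun b => b ∈ S).card =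
      (Finset.univ.filter fun b => b ∈ S ∧ ¬ D b).card +
      (Finset.univ.filter fun b => b ∈ S ∧ D b).card := by
    have h2 := Finset.card_filter_add_card_filter_not
      (s := (Finset.univ : Finset B).filter (fun b => b ∈ S)) (fun b => D b)
    rw [Finset.filter_filter, Finset.filter_filter] at h2
    omega
  have cT : (Finset.univ.filter fun w => w ∈ T).card =
      (Finset.univ.filter fun b => b ∈ S ∧ ¬ D b).card +
      (Finset.univ.filter fun b => b ∉ S ∧ D b).card := by
    have h1 : (Finset.univ.filter fun w => w ∈ T).card =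
        (Finset.univ.filter fun b => M.e (m b) b ∈ T).card := by
      symm
      refine Finset.card_bij (fun b _ => M.e (m b) b) ?_ ?_ ?_
      · intro b hb
        simpa using hb
      · intro b _ b' _ h
        exact hbij.1 h
      · intro w hw
        obtain ⟨b, hb⟩ := hbij.2 w
        refine ⟨b, ?_, hb⟩
        simp only [Finset.mem_filter, Finset.mem_univ, true_and] at hw ⊢
        rw [← hb] at hw
        exact hw
    rw [h1]
    have h2 := Finset.card_filter_add_card_filter_not
      (s := (Finset.univ : Finset B).filter (fun b => M.e (m b) b ∈ T)) (fun b => b ∈ S)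
    rw [Finset.filter_filter, Finset.filter_filter] at h2
    have h3 : (Finset.univ.filter fun b => M.e (m b) b ∈ T ∧ b ∈ S) =
        Finset.univ.filter fun b => b ∈ S ∧ ¬ D b := by
      ext b
      simp only [Finset.mem_filter, Finset.mem_univ, true_and, hDdef]
      tauto
    have h4 : (Finset.univ.filter fun b => M.e (m b) b ∈ T ∧ b ∉ S) =
        Finset.univ.filter fun b => b ∉ S ∧ D b := by
      ext b
      simp only [Finset.mem_filter, Finset.mem_univ, true_and, hDdef]
      tauto
    rw [h3, h4] at h2
    omega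
  have cE1 : 3 * (Finset.univ.filter fun b => b ∈ S).card =
      (Finset.univ.filter fun q : B × Fin 3 => q.1 ∈ S ∧ M.e q.2 q.1 ∈ T).card +
      (Finset.univ.filter fun b => b ∈ S ∧ D b).card := by
    have h1 : (Finset.univ.filter fun q : B × Fin 3 => q.1 ∈ S).card =
        3 * (Finset.univ.filter fun b => b ∈ S).card := by
      have : (Finset.univ.filter fun q : B × Fin 3 => q.1 ∈ S) =
          (Finset.univ.filter fun b => b ∈ S) ×ˢ (Finset.univ : Finset (Fin 3)) := by
        ext q; simp
      rw [this, Finset.card_product]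
      simp [mul_comm]
    have h2 := Finset.card_filter_add_card_filter_not
      (s := (Finset.univ : Finset (B × Fin 3)).filter (fun q => q.1 ∈ S))
      (fun q => M.e q.2 q.1 ∈ T)
    rw [Finset.filter_filter, Finset.filter_filter] at h2
    have h3 : (Finset.univ.filter fun q : B × Fin 3 => q.1 ∈ S ∧ M.e q.2 q.1 ∉ T).card =
        (Finset.univ.filter fun b => b ∈ S ∧ D b).card := by
      refine Finset.card_bij (fun q _ => q.1) ?_ ?_ ?_
      · intro q hq
        simp only [Finset.mem_filter, Finset.mem_univ, true_and, hDdef] at hq ⊢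
        have : q.2 = m q.1 := by
          by_contra hh
          exact hq.2 ((hc q.1 q.2 hh).1 hq.1)
        rw [← this]
        tauto
      · intro q hq q' hq' h
        simp only [Finset.mem_filter, Finset.mem_univ, true_and] at hq hq'
        have e1 : q.2 = m q.1 := by
          by_contra hh
          exact hq.2 ((hc q.1 q.2 hh).1 hq.1)
        have e2 : q'.2 = m q'.1 := by
          by_contra hh
          exact hq'.2 ((hc q'.1 q'.2 hh).1 hq'.1)
        refine Prod.ext h ?_
        rw [e1, e2, h]
      · intro b hb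
        simp only [Finset.mem_filter, Finset.mem_univ, true_and, hDdef] at hb
        refine ⟨(b, m b), ?_, rfl⟩
        simp only [Finset.mem_filter, Finset.mem_univ, true_and]
        tauto
    omega
  have cE2 : 3 * (Finset.univ.filter fun w => w ∈ T).card =
      (Finset.univ.filter fun q : B × Fin 3 => q.1 ∈ S ∧ M.e q.2 q.1 ∈ T).card +
      (Finset.univ.filter fun b => b ∉ S ∧ D b).card := by
    have h1 : (Finset.univ.filter fun q : B × Fin 3 => M.e q.2 q.1 ∈ T).card =
        3 * (Finset.univ.filter fun w => w ∈ T).card := by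
      have h5 : ((Finset.univ.filter fun w => w ∈ T) ×ˢ (Finset.univ : Finset (Fin 3))).card =
          3 * (Finset.univ.filter fun w => w ∈ T).card := by
        rw [Finset.card_product]
        simp [mul_comm]
      rw [← h5]
      refine Finset.card_bij (fun q _ => (M.e q.2 q.1, q.2)) ?_ ?_ ?_
      · intro q hq
        simp only [Finset.mem_filter, Finset.mem_univ, true_and] at hq
        simp [hq]
      · intro q _ q' _ h
        obtain ⟨e1, e2⟩ := Prod.mk.inj h
        rw [e2] at e1
        exact Prod.ext ((M.e q'.2).injective e1) e2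
      · intro q hq
        refine ⟨((M.e q.2).symm q.1, q.2), ?_, by simp⟩
        simp only [Finset.mem_product, Finset.mem_filter, Finset.mem_univ, true_and,
          and_true] at hq
        simp only [Finset.mem_filter, Finset.mem_univ, true_and, Equiv.apply_symm_apply]
        exact hq
    have h2 := Finset.card_filter_add_card_filter_not
      (s := (Finset.univ : Finset (B × Fin 3)).filter (fun q => M.e q.2 q.1 ∈ T))
      (fun q => q.1 ∈ S)
    rw [Finset.filter_filter, Finset.filter_filter] at h2
    have h4 : (Finset.univ.filter fun q : B × Fin 3 => M.e q.2 q.1 ∈ T ∧ q.1 ∈ S) =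
        Finset.univ.filter fun q : B × Fin 3 => q.1 ∈ S ∧ M.e q.2 q.1 ∈ T := by
      ext q
      simp only [Finset.mem_filter, Finset.mem_univ, true_and]
      tauto
    have h3 : (Finset.univ.filter fun q : B × Fin 3 => M.e q.2 q.1 ∈ T ∧ q.1 ∉ S).card =
        (Finset.univ.filter fun b => b ∉ S ∧ D b).card := by
      refine Finset.card_bij (fun q _ => q.1) ?_ ?_ ?_
      · intro q hq
        simp only [Finset.mem_filter, Finset.mem_univ, true_and, hDdef] at hq ⊢
        have : q.2 = m q.1 := by
          by_contra hh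
          exact hq.2 ((hc q.1 q.2 hh).2 hq.1)
        rw [← this]
        tauto
      · intro q hq q' hq' h
        simp only [Finset.mem_filter, Finset.mem_univ, true_and] at hq hq'
        have e1 : q.2 = m q.1 := by
          by_contra hh
          exact hq.2 ((hc q.1 q.2 hh).2 hq.1)
        have e2 : q'.2 = m q'.1 := by
          by_contra hh
          exact hq'.2 ((hc q'.1 q'.2 hh).2 hq'.1)
        refine Prod.ext h ?_
        rw [e1, e2, h]
      · intro b hb
        simp only [Finset.mem_filter, Finset.mem_univ, true_and, hDdef] at hb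
        refine ⟨(b, m b), ?_, rfl⟩
        simp only [Finset.mem_filter, Finset.mem_univ, true_and]
        tauto
    rw [h4] at h2
    omega
  -- the crossing faces
  have cD : (Finset.univ.filter fun b => D b).card =
      (Finset.univ.filter fun b => b ∈ S ∧ D b).card +
      (Finset.univ.filter fun b => b ∉ S ∧ D b).card := by
    have h2 := Finset.card_filter_add_card_filter_not
      (s := (Finset.univ : Finset B).filter (fun b => D b)) (fun b => b ∈ S)
    rw [Finset.filter_filter, Finset.filter_filter] at h2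
    have h3 : (Finset.univ.filter fun b => D b ∧ b ∈ S) =
        Finset.univ.filter fun b => b ∈ S ∧ D b := by
      ext b; simp only [Finset.mem_filter, Finset.mem_univ, true_and]; tauto
    have h4 : (Finset.univ.filter fun b => D b ∧ b ∉ S) =
        Finset.univ.filter fun b => b ∉ S ∧ D b := by
      ext b; simp only [Finset.mem_filter, Finset.mem_univ, true_and]; tauto
    rw [h3, h4] at h2
    omega
  set C : Finset V := Finset.univ.filter fun v => ¬ Ins M S T v ∧ ¬ Ins M Sᶜ Tᶜ v with hCdef
  have cC : C.card ≤ (Finset.univ.filter fun b => D b).card := by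
    have : C ⊆ (Finset.univ.filter fun b => D b).image
        (fun b => if b ∈ S then M.c (m b + 1) b else M.c (m b + 2) b) := by
      intro v hv
      rw [hCdef, Finset.mem_filter] at hv
      obtain ⟨j, b, hb, ⟨hS, hT⟩ | ⟨hS, hT⟩⟩ := exists_leave hv.2.1 hv.2.2
      · have e1 : j + 2 = m b := by
          by_contra hh
          exact hT ((hc b _ hh).1 hS)
        rw [Finset.mem_image]
        refine ⟨b, ?_, ?_⟩
        · rw [Finset.mem_filter]
          refine ⟨Finset.mem_univ _, ?_⟩
          simp only [hDdef]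
          rw [← e1]; tauto
        · rw [if_pos hS, ← e1, f21]; exact hb
      · have e1 : j + 1 = m b := by
          by_contra hh
          exact hS ((hc b _ hh).2 hT)
        rw [Finset.mem_image]
        refine ⟨b, ?_, ?_⟩
        · rw [Finset.mem_filter]
          refine ⟨Finset.mem_univ _, ?_⟩
          simp only [hDdef]
          rw [← e1]; tauto
        · rw [if_neg hS, ← e1, f12]; exact hb
    exact (Finset.card_le_card this).trans Finset.card_image_le
  have cV : Fintype.card V ≤ (Finset.univ.filter fun v => Ins M S T v).card +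
      (Finset.univ.filter fun v => Ins M Sᶜ Tᶜ v).card + C.card := by
    have : (Finset.univ : Finset V) ⊆ ((Finset.univ.filter fun v => Ins M S T v) ∪
        (Finset.univ.filter fun v => Ins M Sᶜ Tᶜ v)) ∪ C := by
      intro v _
      simp only [hCdef, Finset.mem_union, Finset.mem_filter, Finset.mem_univ, true_and]
      tauto
    have h1 := Finset.card_le_card this
    have h2 := Finset.card_union_le ((Finset.univ.filter fun v => Ins M S T v) ∪
        (Finset.univ.filter fun v => Ins M Sᶜ Tᶜ v)) C
    have h3 := Finset.card_union_le (Finset.univ.filter fun v => Ins M S T v)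
        (Finset.univ.filter fun v => Ins M Sᶜ Tᶜ v)
    rw [Finset.card_univ] at h1
    omega
  have hown : ∀ b : BOff b₀, own M b₀ f b.1 = (φ b).1 := by
    intro b
    unfold own
    rw [dif_pos b.2]
    exact (fo_some M b₀).1 (hφ b)
  have hownc : ∀ b : BOff b₀, M.c (f b) b.1 = (φ b).1 := fun b => (fo_some M b₀).1 (hφ b)
  have hcard := hM.card
  by_cases hD0 : D b₀
  · -- the edge at the root is crossing
    have h1 : (((Finset.univ.filter fun b => D b).erase b₀).image (own M b₀ f)) ⊆ C := by
      intro v hv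
      rw [Finset.mem_image] at hv
      obtain ⟨b, hb, rfl⟩ := hv
      rw [Finset.mem_erase, Finset.mem_filter] at hb
      rw [hown ⟨b, hb.1⟩, ← hownc, hCdef, Finset.mem_filter]
      have hmf := hm ⟨b, hb.1⟩
      have hDb := hb.2.2
      simp only [hDdef] at hDb
      refine ⟨Finset.mem_univ _, fun h => ?_, fun h => ?_⟩
      · have := h _ b rfl
        exact hDb ⟨fun _ => this.2 _ hmf, fun _ => this.1⟩
      · have := h _ b rfl
        exact hDb ⟨fun h => absurd h this.1, fun h => absurd h (this.2 _ hmf)⟩
    have h2 : ∀ j, j ≠ m b₀ → M.c j b₀ ∈ C := by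
      intro j hj
      simp only [hDdef] at hD0
      rw [hCdef, Finset.mem_filter]
      refine ⟨Finset.mem_univ _, fun h => ?_, fun h => ?_⟩
      · have := h _ b₀ rfl
        exact hD0 ⟨fun _ => this.2 _ hj.symm, fun _ => this.1⟩
      · have := h _ b₀ rfl
        exact hD0 ⟨fun h => absurd h this.1, fun h => absurd h (this.2 _ hj.symm)⟩
    have h3 : (((Finset.univ.filter fun b => D b).erase b₀).image (own M b₀ f)).card =
        (Finset.univ.filter fun b => D b).card - 1 := by
      rw [Finset.card_image_of_injOn, Finset.card_erase_of_mem]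
      · rw [Finset.mem_filter]; exact ⟨Finset.mem_univ _, hD0⟩
      · intro b hb b' hb' h
        rw [Finset.mem_coe, Finset.mem_erase] at hb hb'
        rw [hown ⟨b, hb.1⟩, hown ⟨b', hb'.1⟩] at h
        have := φ.injective (Subtype.ext h)
        exact congrArg Subtype.val this
    have h4 : insert (M.c (m b₀ + 1) b₀) (insert (M.c (m b₀ + 2) b₀)
        (((Finset.univ.filter fun b => D b).erase b₀).image (own M b₀ f))) ⊆ C := by
      intro v hv
      rw [Finset.mem_insert, Finset.mem_insert] at hv
      rcases hv with rfl | rfl | hv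
      · exact h2 _ (fne1 _)
      · exact h2 _ (by generalize m b₀ = a; revert a; decide)
      · exact h1 hv
    have hno : ∀ j, M.c j b₀ ∉
        (((Finset.univ.filter fun b => D b).erase b₀).image (own M b₀ f)) := by
      intro j hv
      rw [Finset.mem_image] at hv
      obtain ⟨b, hb, hh⟩ := hv
      rw [Finset.mem_erase] at hb
      rw [hown ⟨b, hb.1⟩] at hh
      exact (φ ⟨b, hb.1⟩).2 j hh.symm
    have h5 : (insert (M.c (m b₀ + 1) b₀) (insert (M.c (m b₀ + 2) b₀)
        (((Finset.univ.filter fun b => D b).erase b₀).image (own M b₀ f)))).card =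
        (Finset.univ.filter fun b => D b).card - 1 + 1 + 1 := by
      rw [Finset.card_insert_of_notMem, Finset.card_insert_of_notMem (hno _), h3]
      rw [Finset.mem_insert]
      rintro (h | h)
      · exact fne12 _ (M.cls _ _ _ _ h)
      · exact hno _ h
    have h6 := Finset.card_le_card h4
    have h7 : 0 < (Finset.univ.filter fun b => D b).card :=
      Finset.card_pos.2 ⟨b₀, by rw [Finset.mem_filter]; exact ⟨Finset.mem_univ _, hD0⟩⟩
    omega
  · -- the edge at the root is not crossing
    have h1 : (Finset.univ.filter fun v => Ins M Sᶜ Tᶜ v) ⊆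
        (Finset.univ.filter fun b => b ∉ S ∧ ¬ D b).image (own M b₀ f) := by
      intro v hv
      rw [Finset.mem_filter] at hv
      have hv0 : ∀ j, M.c j b₀ ≠ v := by
        intro j hj
        exact (hv.2 j b₀ hj).1 h0
      rw [Finset.mem_image]
      have h2 : φ (φ.symm ⟨v, hv0⟩) = ⟨v, hv0⟩ := φ.apply_symm_apply _
      have h3 := hownc (φ.symm ⟨v, hv0⟩)
      rw [h2] at h3
      have h4 := hv.2 _ _ h3
      refine ⟨(φ.symm ⟨v, hv0⟩).1, ?_, ?_⟩
      · rw [Finset.mem_filter]
        refine ⟨Finset.mem_univ _, h4.1, ?_⟩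
        simp only [hDdef, not_not]
        have h5 := h4.2 _ (hm (φ.symm ⟨v, hv0⟩))
        exact ⟨fun h => absurd h h4.1, fun h => absurd h h5⟩
      · rw [hown, h2]
    have h2 := (Finset.card_le_card h1).trans Finset.card_image_le
    omega

/-- L6 -/
theorem hamStmt : HamStmt := by
  intro B W V _ _ _ M hM b₀ f hf hg i
  obtain ⟨m, hm0, hm1, hm2⟩ := exists_matching M b₀ f
    (gamma_conn M b₀ hM.conn f hf hg) i
  obtain ⟨φ, hφ⟩ := hf
  exact ⟨m, ⟨hm2, ham_of hM f φ hφ m hm1 hm2⟩, hm0⟩

end Vale.Agent.P039.H456
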