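import Vale.Agent.P039.Bn.H456.Gam
import Mathlib.Combinatorics.SimpleGraph.Metric

/-! STEP 1, second part: the perfect matching. -/

namespace Vale.Agent.P039.H456

open Vale.Agent.P039.Bn Vale.Agent.P039.Bz

variable {B W V : Type} (M : PMap B W V) (b₀ : B)

/-- the graph on the whites -/
def gam (f : BOff b₀ → Fin 3) : SimpleGraph W :=
  SimpleGraph.fromRel fun w w' => ∃ b : BOff b₀, M.e (f b + 1) b.1 = w ∧ M.e (f b + 2) b.1 = w'

theorem reach (f : BOff b₀ → Fin 3)
    (h : ∀ n : W → ℚ, (∀ b, n (M.e (f b + 1) b.1) = n (M.e (f b + 2) b.1)) →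
      ∀ w w', n w = n w') (w w' : W) : (gam M b₀ f).Reachable w w' := by
  classical
  have h1 := h (fun x => if (gam M b₀ f).Reachable w x then 1 else 0) (by
    intro b
    have : (gam M b₀ f).Reachable w (M.e (f b + 1) b.1) ↔
        (gam M b₀ f).Reachable w (M.e (f b + 2) b.1) := by
      by_cases he : M.e (f b + 1) b.1 = M.e (f b + 2) b.1
      · rw [he]
      · have ha : (gam M b₀ f).Adj (M.e (f b + 1) b.1) (M.e (f b + 2) b.1) := by
          rw [gam, SimpleGraph.fromRel_adj]
          exact ⟨he, Or.inl ⟨b, rfl, rfl⟩⟩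
        exact ⟨fun h => h.trans ha.reachable, fun h => h.trans ha.symm.reachable⟩
    simp only [this]) w w'
  by_contra hne
  simp only [if_neg hne, if_pos (SimpleGraph.Reachable.refl w)] at h1
  norm_num at h1

/-- the parent edge -/
theorem parent (f : BOff b₀ → Fin 3) (w₀ : W) (hr : ∀ w, (gam M b₀ f).Reachable w w₀) (w : W)
    (hw : w ≠ w₀) : ∃ (b : BOff b₀) (i j : Fin 3), i ≠ f b ∧ j ≠ f b ∧ i ≠ j ∧
      M.e i b.1 = w ∧ (gam M b₀ f).dist (M.e j b.1) w₀ < (gam M b₀ f).dist w w₀ := by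
  obtain ⟨p, hp⟩ := (hr w).exists_walk_length_eq_dist
  cases p with
  | nil => exact absurd rfl hw
  | @cons _ w' _ h q =>
    have h1 := SimpleGraph.dist_le q
    rw [SimpleGraph.Walk.length_cons] at hp
    rw [gam, SimpleGraph.fromRel_adj] at h
    obtain ⟨hne, ⟨b, hb1, hb2⟩ | ⟨b, hb1, hb2⟩⟩ := h
    · refine ⟨b, f b + 1, f b + 2, fne1 _, ?_, fne12 _, hb1, ?_⟩
      · generalize f b = a; revert a; decide
      · rw [hb2]; omega
    · refine ⟨b, f b + 2, f b + 1, ?_, fne1 _, fne21 _, hb2, ?_⟩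
      · generalize f b = a; revert a; decide
      · rw [hb1]; omega

theorem two_of_three {a i j i' j' : Fin 3} (hi : i ≠ a) (hj : j ≠ a) (hij : i ≠ j) (hi' : i' ≠ a)
    (hj' : j' ≠ a) (hij' : i' ≠ j') (h : i ≠ i') : j = i' ∧ j' = i := by
  revert a i j i' j'; decide

/-- the perfect matching which contains the edge of colour `i` at the root and avoids the colour
`f b` at the other blacks -/
theorem exists_matching [Fintype B] [Fintype W] (f : BOff b₀ → Fin 3)
    (h : ∀ n : W → ℚ, (∀ b, n (M.e (f b + 1) b.1) = n (M.e (f b + 2) b.1)) →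
      ∀ w w', n w = n w') (i : Fin 3) :
    ∃ m : B → Fin 3, m b₀ = i ∧ (∀ b : BOff b₀, m b.1 ≠ f b) ∧
      Function.Bijective (fun b => M.e (m b) b) := by
  classical
  have hp := fun w : {w // w ≠ M.e i b₀} =>
    parent M b₀ f (M.e i b₀) (fun w => reach M b₀ f h _ _) w.1 w.2
  choose β col col' h1 h2 h3 h4 h5 using hp
  have hinj : Function.Injective β := by
    intro w w' hww
    by_contra hne
    have hcol : col w ≠ col w' := by
      intro hc
      apply hne
      apply Subtype.ext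
      rw [← h4 w, ← h4 w', hc, hww]
    have h6 := two_of_three (h1 w) (h2 w) (h3 w) (hww ▸ h1 w') (hww ▸ h2 w') (h3 w') hcol
    have h7 := h5 w
    have h8 := h5 w'
    rw [h6.1, hww, h4 w'] at h7
    rw [h6.2, ← hww, h4 w] at h8
    omega
  have hcard : Fintype.card {w // w ≠ M.e i b₀} = Fintype.card (BOff b₀) :=
    Fintype.card_congr ((M.e i).subtypeEquiv (p := fun b => b ≠ b₀) (q := fun w => w ≠ M.e i b₀)
      (fun b => (M.e i).injective.ne_iff.symm)).symm
  have hbij : Function.Bijective β :=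
    (Fintype.bijective_iff_injective_and_card β).2 ⟨hinj, hcard⟩
  have hs := hbij.2
  choose γ hγ using hs
  refine ⟨fun b => if hb : b ≠ b₀ then col (γ ⟨b, hb⟩) else i, ?_, ?_, ?_⟩
  · simp
  · intro b
    beta_reduce
    rw [dif_pos b.2]
    have := h1 (γ b)
    rw [hγ b] at this
    exact this
  · have hval : ∀ b : BOff b₀, M.e (col (γ b)) b.1 = (γ b).1 := by
      intro b
      have := h4 (γ b)
      rw [hγ b] at this
      exact this
    refine (Fintype.bijective_iff_injective_and_card _).2 ⟨?_, Fintype.card_congr (M.e 0)⟩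
    intro b b' hbb
    simp only at hbb
    by_cases hb : b ≠ b₀ <;> by_cases hb' : b' ≠ b₀
    · rw [dif_pos hb, dif_pos hb', hval ⟨b, hb⟩, hval ⟨b', hb'⟩] at hbb
      have h9 := Subtype.ext hbb
      have h10 := congrArg β h9
      rw [hγ, hγ] at h10
      exact congrArg Subtype.val h10
    · rw [dif_pos hb, dif_neg hb', hval ⟨b, hb⟩] at hbb
      rw [not_not] at hb'
      rw [hb'] at hbb
      exact absurd hbb (γ ⟨b, hb⟩).2
    · rw [dif_neg hb, dif_pos hb', hval ⟨b', hb'⟩] at hbb
      rw [not_not] at hb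
      rw [hb] at hbb
      exact absurd hbb.symm (γ ⟨b', hb'⟩).2
    · rw [not_not] at hb hb'
      rw [hb, hb']

end Vale.Agent.P039.H456
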